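import Vale.Agent.P183LT.Lat
import Mathlib.Data.Set.Card

/-!
Iterated horizontal sums in which a given lattice sits on top of every node.
-/

namespace Vale.Agent.N183X

open Vale.Agent.P183A Vale.Agent.P183NK Vale.Agent.P183B Vale.Agent.P183LT

section
variable (Λ : Type) [Lattice Λ] [BoundedOrder Λ] {L L' : Type} [Lattice L] [Lattice L']

/-- `Λ` is an interval `[y, z]` with `o ≤ y`. -/
def Under (o z : L) : Prop :=
  ∃ g : Λ → L, (∀ x y, g x ≤ g y ↔ x ≤ y) ∧ o ≤ g ⊥ ∧ g ⊤ = z ∧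
    ∀ w, g ⊥ ≤ w → w ≤ z → ∃ x, g x = w

/-- `z` is a node, or lies in a small interval above a cut point. -/
def Nd (o z : L) : Prop :=
  Under Λ o z ∨ ∃ p, p < z ∧ (∀ w, o ≤ w → w ≤ z → w ≤ p ∨ p ≤ w) ∧
    ∃ φ : WithBot Λ → L, ∀ w, p ≤ w → w ≤ z → ∃ x, φ x = w

variable {Λ}

theorem Under.mono {o o' z : L} (h : Under Λ o z) (ho : o' ≤ o) : Under Λ o' z :=
  let ⟨g, h1, h2, h3, h4⟩ := h
  ⟨g, h1, ho.trans h2, h3, h4⟩

theorem Under.map (f : L → L') (hf : ∀ x y, f x ≤ f y ↔ x ≤ y) {o z : L}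
    (hr : ∀ w, f o ≤ w → w ≤ f z → ∃ c, f c = w) (h : Under Λ o z) : Under Λ (f o) (f z) := by
  obtain ⟨g, h1, h2, h3, h4⟩ := h
  refine ⟨fun x => f (g x), fun x y => (hf _ _).trans (h1 _ _), (hf _ _).2 h2, congrArg f h3,
    fun w g1 g2 => ?_⟩
  obtain ⟨c, rfl⟩ := hr w (((hf _ _).2 h2).trans g1) g2
  obtain ⟨x, rfl⟩ := h4 c ((hf _ _).1 g1) ((hf _ _).1 g2)
  exact ⟨x, rfl⟩

theorem Nd.map [OrderBot L] (f : L → L') (hf : ∀ x y, f x ≤ f y ↔ x ≤ y) {z : L} {o : L'}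
    (ho : o ≤ f ⊥) (hr : ∀ w, o ≤ w → w ≤ f z → w ≤ f ⊥ ∨ ∃ c, f c = w) (h : Nd Λ ⊥ z) :
    Nd Λ o (f z) := by
  have hr' : ∀ w, f ⊥ ≤ w → w ≤ f z → ∃ c, f c = w := fun w g1 g2 =>
    (hr w (ho.trans g1) g2).elim (fun g => ⟨⊥, le_antisymm g1 g⟩) id
  rcases h with h | ⟨p, h1, h2, φ, h3⟩
  · exact Or.inl ((h.map f hf hr').mono ho)
  refine Or.inr ⟨f p, lt_iff_le_not_ge.2 ⟨(hf _ _).2 h1.le, fun g => h1.not_ge ((hf _ _).1 g)⟩,
    fun w g1 g2 => ?_, fun x => f (φ x), fun w g1 g2 => ?_⟩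
  · rcases hr w g1 g2 with g | ⟨c, rfl⟩
    · exact Or.inl (g.trans ((hf _ _).2 bot_le))
    · exact (h2 c bot_le ((hf _ _).1 g2)).imp (hf _ _).2 (hf _ _).2
  · obtain ⟨c, rfl⟩ := hr' w (((hf _ _).2 bot_le).trans g1) g2
    obtain ⟨x, rfl⟩ := h3 c ((hf _ _).1 g1) ((hf _ _).1 g2)
    exact ⟨x, rfl⟩

theorem good_card [Finite L] {m : ℕ} (hm : 0 < m) (k : ℕ) : ∀ a b : L, P183NK.Good m k a b →
    k + 2 ≤ (Set.Icc a b).ncard := by
  induction k with
  | zero =>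
    intro a b h
    have h : a < b := h
    rw [zero_add, ← Set.ncard_pair h.ne]
    refine Set.ncard_le_ncard ?_
    rintro x (rfl | rfl)
    exacts [⟨le_rfl, h.le⟩, ⟨h.le, le_rfl⟩]
  | succ k ih =>
    rintro a b ⟨c, z, hab, -, hz⟩
    obtain ⟨-, h1, h2⟩ := hz ⟨0, hm⟩
    refine Nat.succ_le_of_lt ((ih _ _ h1).trans_lt (Set.ncard_lt_ncard ⟨fun x hx =>
      ⟨hx.1, hx.2.trans (good_lt h2).le⟩, fun g => ?_⟩))
    exact (good_lt h2).not_ge (g ⟨hab.le, le_rfl⟩).2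

theorem Nd.under [Finite L] [Finite Λ] {m : ℕ} (hm : 2 ≤ m) {o a z : L} (ho : o ≤ a)
    (hg : P183NK.Good m (Nat.card (WithBot Λ)) a z) (h : Nd Λ o z) : Under Λ o z := by
  have := finite_withBot (X := Λ)
  rcases h with h | ⟨p, h1, h2, φ, h3⟩
  · exact h
  exfalso
  by_cases hp : p ≤ a
  · have g1 := good_card (by omega) _ _ _ hg
    have g2 : (Set.Icc a z).ncard ≤ (φ '' Set.univ).ncard := Set.ncard_le_ncard fun w hw =>
      let ⟨x, hx⟩ := h3 w (hp.trans hw.1) hw.2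
      ⟨x, trivial, hx⟩
    have g3 := g2.trans Set.ncard_image_le
    rw [Set.ncard_univ] at g3
    omega
  have hap : a < p := lt_iff_le_not_ge.2 ⟨(h2 a ho (good_lt hg).le).resolve_right hp, hp⟩
  obtain ⟨k, hk⟩ := Nat.exists_eq_succ_of_ne_zero (Nat.card_pos (α := WithBot Λ)).ne'
  rw [hk] at hg
  obtain ⟨c, y, -, hs, hy⟩ := hg
  have : Nontrivial (Fin m) := Fin.nontrivial_iff_two_le.2 hm
  obtain ⟨i, hi⟩ := exists_ne (c p)
  obtain ⟨g0, g1, g2⟩ := hy i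
  obtain ⟨e1, e2⟩ := hs (y i) p (good_lt g1) (good_lt g2) hap h1 (by rw [g0]; exact hi)
  rcases h2 (y i) (ho.trans (good_lt g1).le) (good_lt g2).le with g | g
  · exact (good_lt g1).ne' ((inf_eq_left.2 g).symm.trans e1)
  · exact (good_lt g2).ne ((sup_eq_left.2 g).symm.trans e2)

end

variable {Λ : Type} [Lattice Λ] [BoundedOrder Λ]

theorem glueN {m k : ℕ} {K : Type} [Lattice K] [BoundedOrder K] [Finite K]
    (h : P183NK.Good m k (⊥ : K) ⊤) (hT : Under Λ (⊥ : K) ⊤) (hN : ∀ z : K, z ≠ ⊥ → Nd Λ ⊥ z) :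
    ∃ (J : Type) (_ : Lattice J) (_ : BoundedOrder J) (_ : Finite J) (z : J),
      P183NK.Good m k ⊥ z ∧ P183NK.Good m k z ⊤ ∧ Under Λ z ⊤ ∧ ∀ y : J, y ≠ ⊥ → Nd Λ ⊥ y := by
  have hK := (good_lt h).ne
  let _ : Lattice (Ins DA (Pr K)) := toLattice _
    (Ins.hasSup (hasSup_of_lattice _) (qsup_pr (hasSup_of_lattice K)))
    (Ins.hasInf (hasInf_of_lattice _) (qinf_pr (hasInf_of_lattice K)))
  have hr : ∀ j (w : Ins DA (Pr K)), w ≤ blockMap DA K j ⊤ →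
      w ≤ blockMap DA K j ⊥ ∨ ∃ c, blockMap DA K j c = w := fun j w h2 => by
    rw [bm_top DA j hK] at h2
    rw [bm_bot]
    cases w with
    | base c =>
      have : ∀ (j : Bool) (c : Fin 3), c ≤ DA.v j → c ≤ DA.u j ∨ c = DA.v j := by decide
      rcases this j c (Ins.base_le_base.1 h2) with g | rfl
      · exact Or.inl (Ins.base_le_base.2 g)
      · exact Or.inr ⟨⊤, bm_top _ _ hK⟩
    | new j' x =>
      have : ∀ j j' : Bool, DA.v j' ≤ DA.v j → DA.v j' ≤ DA.u j ∨ j = j' := by decide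
      rcases this j j' (Ins.new_le_base.1 h2) with g | rfl
      · exact Or.inl (Ins.new_le_base.2 g)
      · exact Or.inr ⟨x.1, bm_new _ _ _⟩
  have hr' : ∀ j (w : Ins DA (Pr K)), blockMap DA K j ⊥ ≤ w → w ≤ blockMap DA K j ⊤ →
      ∃ c, blockMap DA K j c = w := fun j w g1 g2 =>
    (hr j w g2).elim (fun g => ⟨⊥, le_antisymm g1 g⟩) id
  have key : ∀ j, P183NK.Good m k (Ins.base (DA.u j) : Ins DA (Pr K)) (Ins.base (DA.v j)) := by
    intro j
    have := good_map (blockMap DA K j) (bm_le DA j hK) k ⊥ ⊤ (hr' j) h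
    rwa [bm_bot, bm_top DA j hK] at this
  have keyT : ∀ j, Under Λ (Ins.base (DA.u j) : Ins DA (Pr K)) (Ins.base (DA.v j)) := by
    intro j
    have := hT.map (blockMap DA K j) (bm_le DA j hK) (hr' j)
    rwa [bm_bot, bm_top DA j hK] at this
  refine ⟨Ins DA (Pr K), _, inferInstance, inferInstance, Ins.base 1, key false, key true,
    keyT true, fun y hy => ?_⟩
  cases y with
  | base c =>
    have : ∀ c : Fin 3, c = ⊥ ∨ ∃ j, c = DA.v j := by decide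
    rcases this c with rfl | ⟨j, rfl⟩
    · exact absurd rfl hy
    · exact Or.inl ((keyT j).mono bot_le)
  | new j x =>
    have := (hN x.1 x.2.1).map (blockMap DA K j) (bm_le DA j hK) bot_le fun w _ g =>
      hr j w (g.trans ((bm_le DA j hK _ _).2 le_top))
    rwa [bm_new] at this

theorem hsumN {m k : ℕ} (hm : 0 < m) {J : Type} [Lattice J] [BoundedOrder J] [Finite J] {z : J}
    (h1 : P183NK.Good m k ⊥ z) (h2 : P183NK.Good m k z ⊤) (hT : Under Λ z ⊤)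
    (hN : ∀ y : J, y ≠ ⊥ → Nd Λ ⊥ y) :
    ∃ (K : Type) (_ : Lattice K) (_ : BoundedOrder K) (_ : Finite K),
      P183NK.Good m (k + 1) (⊥ : K) ⊤ ∧ Under Λ (⊥ : K) ⊤ ∧ ∀ y : K, y ≠ ⊥ → Nd Λ ⊥ y := by
  have hJ := ((good_lt h1).trans (good_lt h2)).ne
  let D := DB (Fin m)
  let _ : Lattice (Ins D (Pr J)) := toLattice _
    (Ins.hasSup (hasSup_of_lattice _) (qsup_pr (hasSup_of_lattice J)))
    (Ins.hasInf (hasInf_of_lattice _) (qinf_pr (hasInf_of_lattice J)))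
  let x : Pr J := ⟨z, (good_lt h1).ne', (good_lt h2).ne⟩
  have hnew : ∀ u : Ins D (Pr J), ⊥ < u → u < ⊤ → ∃ j y, u = Ins.new j y := fun u g1 g2 => by
    cases u with
    | base c =>
      cases c
      · exact absurd rfl g1.ne
      · exact absurd rfl g2.ne
    | new j y => exact ⟨j, y, rfl⟩
  have hlo : ∀ i (y : Pr J) (w : Ins D (Pr J)), w ≤ blockMap D J i y.1 →
      w ≤ blockMap D J i ⊥ ∨ ∃ c, blockMap D J i c = w := fun i y w g => by
    rw [bm_new] at g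
    rw [bm_bot]
    rcases Ins.le_new.1 g with ⟨s, rfl, -⟩ | hs
    · exact Or.inr ⟨s.1, bm_new _ _ _⟩
    · exact Or.inl hs
  have hup : ∀ i (w : Ins D (Pr J)), blockMap D J i x.1 ≤ w → w ≤ blockMap D J i ⊤ →
      ∃ c, blockMap D J i c = w := fun i w g _ => by
    rw [bm_new] at g
    rcases Ins.new_le.1 g with ⟨s, rfl, -⟩ | hs
    · exact ⟨s.1, bm_new _ _ _⟩
    · exact ⟨⊤, (bm_top _ _ hJ).trans (le_antisymm hs le_top)⟩
  have keyT : Under Λ (⊥ : Ins D (Pr J)) ⊤ := by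
    have := hT.map (blockMap D J ⟨0, hm⟩) (bm_le D _ hJ) (hup _)
    rw [bm_top D _ hJ] at this
    exact this.mono bot_le
  refine ⟨Ins D (Pr J), _, inferInstance, inferInstance, ⟨fun w => match w with
    | Ins.base _ => ⟨0, hm⟩
    | Ins.new j _ => j, fun i => Ins.new i x, ?_, fun u v g1 g2 g3 g4 g5 => ?_,
    fun i => ⟨rfl, ?_, ?_⟩⟩, keyT, fun y hy => ?_⟩
  · exact base_lt (by decide)
  · obtain ⟨j, y, rfl⟩ := hnew u g1 g2
    obtain ⟨j', y', rfl⟩ := hnew v g3 g4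
    refine ⟨le_bot_iff.1 ?_, top_le_iff.1 ?_⟩
    · rcases Ins.le_new.1 (inf_le_left (a := Ins.new j y) (b := (Ins.new j' y' : Ins D (Pr J))))
        with ⟨s, hs, -⟩ | hs
      · have := inf_le_right (a := Ins.new j y) (b := (Ins.new j' y' : Ins D (Pr J)))
        rw [hs, Ins.new_le_new] at this
        rcases this with e | e
        · exact absurd e.1 g5
        · exact absurd e (D.lt j).not_ge
      · exact hs
    · rcases Ins.new_le.1 (le_sup_left (a := Ins.new j y) (b := (Ins.new j' y' : Ins D (Pr J))))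
        with ⟨s, hs, -⟩ | hs
      · have := le_sup_right (a := Ins.new j y) (b := (Ins.new j' y' : Ins D (Pr J)))
        rw [hs, Ins.new_le_new] at this
        rcases this with e | e
        · exact absurd e.1.symm g5
        · exact absurd e (D.lt j).not_ge
      · exact hs
  · have := good_map (blockMap D J i) (bm_le D i hJ) k ⊥ x.1 (fun w g0 g =>
      (hlo i x w g).elim (fun g' => ⟨⊥, le_antisymm g0 g'⟩) id) h1
    rwa [bm_bot, bm_new] at this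
  · have := good_map (blockMap D J i) (bm_le D i hJ) k x.1 ⊤ (hup i) h2
    rwa [bm_top D i hJ, bm_new] at this
  · cases y with
    | base c =>
      cases c
      · exact absurd rfl hy
      · exact Or.inl keyT
    | new j y =>
      have := (hN y.1 y.2.1).map (blockMap D J j) (bm_le D j hJ) bot_le fun w _ g => hlo j y w g
      rwa [bm_new] at this

theorem exists_coreN [Finite Λ] {m : ℕ} (hm : 0 < m) (k : ℕ) :
    ∃ (K : Type) (_ : Lattice K) (_ : BoundedOrder K) (_ : Finite K),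
      P183NK.Good m k (⊥ : K) ⊤ ∧ Under Λ (⊥ : K) ⊤ ∧ ∀ y : K, y ≠ ⊥ → Nd Λ ⊥ y := by
  induction k with
  | zero =>
    refine ⟨WithBot Λ, inferInstance, inferInstance, finite_withBot, WithBot.bot_lt_coe (⊤ : Λ),
      ⟨(↑), fun _ _ => WithBot.coe_le_coe, bot_le, rfl, fun w g _ => ?_⟩, fun y hy =>
      Or.inr ⟨⊥, bot_lt_iff_ne_bot.2 hy, fun w g _ => Or.inr g, id, fun w _ _ => ⟨w, rfl⟩⟩⟩
    obtain ⟨y, rfl, -⟩ := WithBot.coe_le_iff.1 g
    exact ⟨y, rfl⟩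
  | succ k ih =>
    obtain ⟨K, _, _, _, h, hT, hN⟩ := ih
    obtain ⟨J, _, _, _, z, h1, h2, h3, h4⟩ := glueN h hT hN
    exact hsumN hm h1 h2 h3 h4

end Vale.Agent.N183X
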