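import Vale.Agent.N183X.Defs
import Vale.Agent.N183X.Core
import Vale.Agent.N183.Main

/-!
From nodes of an interval to groups of automorphisms.
-/

namespace Vale.Agent.N183X

open Vale.Agent.P183A Vale.Agent.P183NK Vale.Agent.P183LT Subgroup

/-- Restriction of an embedding to an interval. -/
def restr {L K α : Type} [PartialOrder L] [PartialOrder K] [BoundedOrder K] [PartialOrder α]
    {a b : α} (E : Emb L (Set.Icc a b)) (g : K → L) (hg : ∀ x y, g x ≤ g y ↔ x ≤ y)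
    (hs : ∀ w, g ⊥ ≤ w → w ≤ g ⊤ → ∃ x, g x = w) :
    Emb K (Set.Icc (E.κ (g ⊥)) (E.κ (g ⊤))) where
  κ x := E.κ (g x)
  le_iff x y := (E.le_iff _ _).trans (hg _ _)
  range W := ⟨by
    rintro ⟨x, rfl⟩
    exact ⟨(E.le_iff _ _).2 ((hg _ _).2 bot_le), (E.le_iff _ _).2 ((hg _ _).2 le_top)⟩, fun hW => by
    obtain ⟨w, rfl⟩ := (E.range W).2 ⟨(E.mem _).1.trans hW.1, hW.2.trans (E.mem _).2⟩
    obtain ⟨x, rfl⟩ := hs w ((E.le_iff _ _).1 hW.1) ((E.le_iff _ _).1 hW.2)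
    exact ⟨x, rfl⟩⟩

theorem carries_of {G Λ : Type} [Group G] [Lattice Λ] [BoundedOrder Λ] {E H z : Subgroup G}
    (hE : E ≤ z) (hn : Nm z E) (hc : z ⊓ centralizer (E : Set G) ≤ H) (hu : Under Λ H z)
    (hcase : H ⊔ E = z ∨ (E ≤ H ∧ centralizer (E : Set G) = ⊥ ∧
      ∀ n, ¬ ∀ g ∈ derivedSeries z n, g.1 ∈ E)) : Carries E Λ := by
  obtain ⟨g, h1, h2, h3, h4⟩ := hu
  have hy : g ⊥ ≤ z := h3 ▸ (h1 _ _).2 bot_le
  let Em : Emb Λ (Set.Icc (g ⊥) z) := ⟨g, h1, fun W => ⟨by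
    rintro ⟨x, rfl⟩
    exact ⟨(h1 _ _).2 bot_le, h3 ▸ (h1 _ _).2 le_top⟩, fun hW => h4 W hW.1 hW.2⟩⟩
  let φ : z →* MulAut E := E.normalizerMonoidHom.comp (inclusion (nm_iff.1 hn))
  have hφ : ∀ (x : z) (t : E), ((φ x t : E) : G) = x * t * (x : G)⁻¹ := fun _ _ => rfl
  have hker : ∀ x : z, φ x = 1 → x.1 ∈ centralizer (E : Set G) := fun x hx t ht => by
    have := hφ x ⟨t, ht⟩
    rw [hx] at this
    exact eq_mul_inv_iff_mul_eq.1 this
  have hI : (E.subgroupOf z).map φ = Inn E := by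
    refine le_antisymm ?_ ?_
    · rintro _ ⟨x, hx, rfl⟩
      exact ⟨⟨x.1, hx⟩, MulEquiv.ext fun t => Subtype.ext rfl⟩
    · rintro _ ⟨t, rfl⟩
      exact ⟨⟨t.1, hE t.2⟩, t.2, MulEquiv.ext fun t => Subtype.ext rfl⟩
  have E1 : Emb Λ (Set.Icc ((g ⊥).subgroupOf z) ⊤) := by
    rw [Set.Icc_top]
    exact Em.sub hy
  have E2 := E1.map le_top φ fun x _ hx => h2 (hc ⟨x.2, hker x hx⟩)
  refine ⟨_, _, map_mono le_top, hI ▸ map_mono le_top, ?_, ⟨E2.iso⟩⟩
  rcases hcase with e | ⟨e1, e2, e3⟩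
  · left
    have : g ⊥ ⊔ E = z := le_antisymm (sup_le hy hE) (e.ge.trans (sup_le_sup_right h2 _))
    rw [← hI, ← Subgroup.map_sup, ← subgroupOf_sup hy hE, this, subgroupOf_self]
  · refine Or.inr ⟨hI ▸ map_mono (comap_mono (e1.trans h2)), fun n hle => e3 n fun x hx => ?_⟩
    have := hle (map_derivedSeries_le_derivedSeries φ n ⟨x, hx, rfl⟩)
    rw [← hI] at this
    obtain ⟨t, ht, e⟩ := this
    have h5 := hker (t⁻¹ * x) (by rw [map_mul, map_inv, e, inv_mul_cancel])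
    rw [e2, mem_bot] at h5
    have h6 : t = x := inv_mul_eq_one.1 (Subtype.ext h5)
    exact h6 ▸ ht

theorem below_of_not_le {S S' : Type} [Group S] [Group S'] (hS' : IsSimpleGroup S')
    (A : Subgroup (MulAut S)) (π : A →* S') (hπ : Function.Surjective π) (h : ¬ Inn S ≤ A) :
    Below S' S := by
  have hI : (Inn S).Normal := inferInstanceAs (P183A.Inn S).Normal
  have hN : (((Inn S).subgroupOf A).map π).Normal :=
    (inferInstance : ((Inn S).subgroupOf A).Normal).map π hπ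
  rcases hN.eq_bot_or_eq_top with e | e
  · exact Or.inr ⟨A, π, hπ, fun a ha => (Subgroup.map_eq_bot_iff _).1 e ha⟩
  · refine Or.inl ⟨A.comap MulAut.conj, fun e' => h ?_, ⊤,
      (π.comp ((MulAut.conj : S →* MulAut S).subgroupComap A)).comp
        (⊤ : Subgroup (A.comap (MulAut.conj : S →* MulAut S))).subtype, fun s => ?_⟩
    · rintro _ ⟨t, rfl⟩
      have : t ∈ A.comap MulAut.conj := by rw [e']; trivial
      exact this
    · have : s ∈ ((Inn S).subgroupOf A).map π := by rw [e]; trivial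
      obtain ⟨a, ⟨t, ht⟩, rfl⟩ := this
      exact ⟨⟨⟨t, by rw [mem_comap, ht]; exact a.2⟩, trivial⟩, congrArg π (Subtype.ext ht)⟩

/-- A carried ordinal sum: the upper summand is carried, and the lower one is an interval in a group
whose simple sections are below. -/
theorem split {S K Λ : Type} [Group S] [Finite S] [Lattice K] [BoundedOrder K]
    [Lattice Λ] [BoundedOrder Λ] (h : Carries S (K ⊕ₗ Λ)) :
    Carries S Λ ∧ GIK (fun S' _ => Below S' S) K := by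
  obtain ⟨H, G, h1, h2, h3, ⟨e⟩⟩ := h
  have := finite_aut (T := S)
  have hI : (Inn S).Normal := inferInstanceAs (P183A.Inn S).Normal
  let E := Emb.ofIso e
  have hT : E.κ (toLex (Sum.inr ⊤)) = G := by
    obtain ⟨x, hx⟩ := (E.range G).2 ⟨h1, le_rfl⟩
    exact le_antisymm (E.mem _).2 (hx.ge.trans ((E.le_iff _ _).2 (le_top (α := K ⊕ₗ Λ))))
  have E1 := restr E (fun x : Λ => toLex (Sum.inr x)) (fun _ _ => Sum.Lex.inr_le_inr_iff)
    fun w g _ => by
      rcases w with c | c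
      · exact absurd g Sum.Lex.not_inr_le_inl
      · exact ⟨c, rfl⟩
  have E2 := restr E (fun x : K => toLex (Sum.inl x)) (fun _ _ => Sum.Lex.inl_le_inl_iff)
    fun w _ g => by
      rcases w with c | c
      · exact ⟨c, rfl⟩
      · exact absurd g Sum.Lex.not_inr_le_inl
  rw [hT] at E1
  have hXY : E.κ (toLex (Sum.inl ⊥)) ≤ E.κ (toLex (Sum.inl ⊤)) :=
    (E.le_iff _ _).2 (Sum.Lex.inl_le_inl_iff.2 bot_le)
  refine ⟨⟨_, G, (E.mem _).2, h2, h3.imp (fun e => le_antisymm (sup_le (E.mem _).2 h2)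
    (e.ge.trans (sup_le_sup_right (E.mem _).1 _))) fun e => ⟨e.1.trans (E.mem _).1, e.2⟩,
    ⟨E1.iso⟩⟩, ?_⟩
  rcases h3 with hsup | ⟨hle, -⟩
  · refine N183.gik_of_emb E2 hXY fun S' _ hs _ ⟨A, π, hπ⟩ => ?_
    let ε := A.equivMapOfInjective _ (E.κ (toLex (Sum.inl ⊤))).subtype_injective
    refine below_of_not_le hs (A.map (E.κ (toLex (Sum.inl ⊤))).subtype)
      (π.comp ε.symm.toMonoidHom) (hπ.comp ε.symm.surjective) fun h => ?_
    refine Sum.Lex.not_inr_le_inl ((E.le_iff (toLex (Sum.inr ⊤)) (toLex (Sum.inl ⊤))).1 ?_)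
    exact (hT.trans hsup.symm).le.trans (sup_le (E.mem _).1 (h.trans (map_subtype_le _)))
  · have hQ : KGrp (fun S' _ => Below S' S) (MulAut S ⧸ Inn S) := fun S' _ _ _ ⟨A, π, hπ⟩ => by
      refine Or.inr ⟨A.comap (QuotientGroup.mk' (Inn S)),
        π.comp ((QuotientGroup.mk' (Inn S)).subgroupComap A), hπ.comp ?_, fun a ha => ?_⟩
      · rintro ⟨a, ha⟩
        obtain ⟨g, rfl⟩ := QuotientGroup.mk'_surjective (Inn S) a
        exact ⟨⟨g, ha⟩, rfl⟩
      · have : (QuotientGroup.mk' (Inn S)).subgroupComap A a = 1 :=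
          Subtype.ext ((QuotientGroup.eq_one_iff _).2 ha)
        rw [MonoidHom.comp_apply, this, map_one]
    exact N183.gik_of_emb (E2.map hXY (QuotientGroup.mk' (Inn S)) fun y _ hy =>
      (E.mem _).1 (hle ((QuotientGroup.eq_one_iff _).1 hy))) (map_mono hXY) (hQ.sub _)

end Vale.Agent.N183X
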