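import Vale.Agent.P183KG.Defs
import Mathlib.GroupTheory.Solvable

/-!
Intervals in almost simple groups whose socle is not on the list of the classification.
-/

namespace Vale.Agent.N183X

open Vale.Agent.P183KG

/-- `S` is a finite nonabelian simple group that is not listed. -/
def Exotic (d c : ℕ) (S : Type) [Group S] : Prop :=
  Finite S ∧ IsSimpleGroup S ∧ (∃ a b : S, a * b ≠ b * a) ∧ ¬ Listed d c S

/-- The inner automorphisms of `S`. -/
def Inn (S : Type) [Group S] : Subgroup (MulAut S) := (MulAut.conj : S →* MulAut S).range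

/-- `Λ ≅ [H, G]` for some `H ≤ G` with `Inn S ≤ G ≤ Aut S`; moreover `H Inn(S) = G`, or else
`Inn S ≤ H` and `Out S` is not solvable. -/
def Carries (S : Type) [Group S] (Λ : Type) [LE Λ] : Prop :=
  ∃ H G : Subgroup (MulAut S), H ≤ G ∧ Inn S ≤ G ∧
    (H ⊔ Inn S = G ∨ (Inn S ≤ H ∧ ∀ n, ¬ derivedSeries (MulAut S) n ≤ Inn S)) ∧
    Nonempty (Λ ≃o Set.Icc H G)

/-- `S'` is a section of a proper subgroup of `S`, or of `Out S` (an image of a group `A` of
automorphisms of `S` under a homomorphism that kills the inner automorphisms in `A`). -/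
def Below (S' S : Type) [Group S'] [Group S] : Prop :=
  (∃ A : Subgroup S, A ≠ ⊤ ∧ IsSection S' A) ∨
    ∃ (A : Subgroup (MulAut S)) (f : A →* S'), Function.Surjective f ∧
      ∀ a : A, a.1 ∈ Inn S → f a = 1

/-- `S = S_k` is the top of a tower `S_0, ..., S_k` of exotic groups that all carry `Λ`, each `S_i`
being below `S_(i+1)`. -/
inductive Tower (d c : ℕ) (Λ : Type) [LE Λ] : ℕ → (S : Type) → [Group S] → Prop
  | base (S : Type) [Group S] : Exotic d c S → Carries S Λ → Tower d c Λ 0 S
  | step (k : ℕ) (S' S : Type) [Group S'] [Group S] : Tower d c Λ k S' → Below S' S →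
      Exotic d c S → Carries S Λ → Tower d c Λ (k + 1) S

end Vale.Agent.N183X
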