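import Vale.Agent.N183X.Aut
import Vale.Agent.P183A.Rep

/-!
A lattice that forces a given lattice to be an interval over an exotic simple group.
-/

namespace Vale.Agent.N183X

open Vale.Agent.P183 Vale.Agent.P183A Vale.Agent.P183B Vale.Agent.P183C Vale.Agent.P183NK
  Vale.Agent.P183LT Vale.Agent.P183PK Subgroup

theorem core {r : ℕ} (Φ : Fin r → Fam) (hΦ : ∀ i, BlockW (Φ i)) (n d c₀ : ℕ)
    (hP : ∀ (S : Type) [Group S], IsSimpleGroup S → P183KG.Listed d c₀ S →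
      Nat.card S ≤ n ∨ ∃ i, Φ i S)
    (Λ : Type) [Lattice Λ] [BoundedOrder Λ] [Finite Λ] :
    ∃ (Λ' : Type) (_ : Lattice Λ') (_ : Finite Λ') (_ : Nonempty Λ'), ∀ Ψ : Fam, ASIK Ψ Λ' →
      ∃ (S : Type) (_ : Group S), Ψ S ∧ Exotic d c₀ S ∧ Carries S Λ := by
  choose Gen m₀ c m j hm hW hF using fun i => (hΦ i).2
  choose B hB using fun i => (hΦ i).1
  obtain ⟨cs, hcs⟩ := smallTop n
  set m' := ∑ i, (m i + m₀ i) + 1 with hm'
  set c' := ∑ i, c i + cs + Nat.card (WithBot Λ) with hc'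
  set M := r * m' + 1 + 1 with hM
  set K := (∑ i, j i + 1) * (c' + 0 + 1) with hK
  have hmi : ∀ i, m i + m₀ i ≤ m' := fun i =>
    (Finset.single_le_sum (f := fun i => m i + m₀ i) (fun _ _ => Nat.zero_le _)
      (Finset.mem_univ i)).trans (Nat.le_succ _)
  have hMi : ∀ i, m₀ i ≤ M := fun i => by
    have := hmi i
    have := Nat.le_mul_of_pos_left m' i.pos
    omega
  have hci : ∀ i, c i ≤ c' := fun i =>
    (Finset.single_le_sum (f := c) (fun _ _ => Nat.zero_le _) (Finset.mem_univ i)).trans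
      (by omega)
  have hM0 : 0 < M := Nat.succ_pos _
  obtain ⟨C, _, _, _, hG, hU, hN⟩ :=
    exists_coreN (Λ := Λ) hM0 (K + c' + (n.factorial + ∑ i, B i))
  obtain ⟨Λ', _, _, _, f₀, hf₀, ht₀, hc₀, hH⟩ := N183.hair C
  refine ⟨Λ', inferInstance, inferInstance, ⟨⊥⟩, fun Ψ => ?_⟩
  rintro ⟨G, _, _, T, H, _, hK, hT, hnab, hc, hcase, ⟨e⟩⟩
  have hK : KGrp Ψ G := hK
  by_contra hno
  let f : Λ' → Subgroup G := fun x => (e x).1
  have hf : ∀ x y, f x ≤ f y ↔ x ≤ y := fun x y => e.le_iff_le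
  have hsurj : ∀ w, H ≤ w → ∃ x, f x = w := fun w hw =>
    ⟨e.symm ⟨w, hw⟩, congrArg Subtype.val (e.apply_symm_apply _)⟩
  have hbot : f ⊥ = H := by
    obtain ⟨x, hx⟩ := hsurj H le_rfl
    exact le_antisymm (hx ▸ (hf _ _).2 bot_le) (e ⊥).2
  have htop : f ⊤ = ⊤ := by
    obtain ⟨x, hx⟩ := hsurj ⊤ le_top
    exact top_le_iff.1 (hx ▸ (hf _ _).2 le_top)
  let F : C → Subgroup G := fun x => f (f₀ x)
  have hF' : ∀ x y, F x ≤ F y ↔ x ≤ y := fun x y => (hf _ _).trans (hf₀ _ _)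
  have hFt : F ⊤ = ⊤ := (congrArg f ht₀).trans htop
  have hFs : ∀ w, F ⊥ ≤ w → ∃ x, F x = w := fun w hw => by
    obtain ⟨x, rfl⟩ := hsurj w ((e _).2.trans hw)
    obtain ⟨y, rfl⟩ := hc₀ x ((hf _ _).1 hw)
    exact ⟨y, rfl⟩
  have hH' : Hairy H (F ⊥) ⊤ := by
    have := hairy_map f hf (fun w h _ => hsurj w (hbot ▸ h)) hH
    rwa [hbot, htop] at this
  have hG' : P183NK.Good M (K + c' + (n.factorial + ∑ i, B i)) (F ⊥) ⊤ := by
    have := good_map F hF' _ ⊥ ⊤ (fun w h _ => hFs w h) hG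
    rwa [hFt] at this
  have hU' : Under Λ H ⊤ := by
    have := (hU.map F hF' fun w h _ => hFs w h).mono hH'.le
    rwa [hFt] at this
  have hN' : ∀ a z k, F ⊥ ≤ a → P183NK.Good M (k + c') a z → Under Λ H z := fun a z k ha hg => by
    obtain ⟨y, rfl⟩ := hFs z (ha.trans hg.lt.le)
    have hy : y ≠ ⊥ := by
      rintro rfl
      exact hg.lt.not_ge ha
    exact (((hN y hy).map F hF' le_rfl fun w h _ => Or.inr (hFs w h)).under (by omega) ha
      (hg.of_le (by omega))).mono hH'.le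
  have hTn : NS T := ⟨hT, by
    obtain ⟨x, hx, y, hy, h⟩ := hnab
    exact ⟨⟨x, hx⟩, ⟨y, hy⟩, fun e => h (congrArg Subtype.val e)⟩⟩
  have hL : P183KG.Listed d c₀ T := by
    by_contra hL
    refine hno ⟨T, inferInstance, (hK.sub T).self hTn, ⟨inferInstance, hT, hTn.nab, hL⟩,
      carries_of le_top (Nm.of_normal _ _) (by rw [hc]; exact inf_le_right.trans bot_le) hU'
        (hcase.imp_right fun ⟨g1, g2⟩ => ⟨g1, hc, fun l hl => g2 ⟨l, ?_⟩⟩)⟩
    rw [← map_derivedSeries_eq (f := (QuotientGroup.mk' T).comp (⊤ : Subgroup G).subtype)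
      ((QuotientGroup.mk'_surjective T).comp fun g => ⟨⟨g, trivial⟩, rfl⟩), eq_bot_iff]
    rintro _ ⟨g, hg, rfl⟩
    exact (QuotientGroup.eq_one_iff _).2 (hl g hg)
  have step : ∀ (a z : Subgroup G) (k : ℕ), Hairy H a z → P183NK.Good M (k + c') a z →
      IsSimpleGroup (EE H z) → P183KG.Listed d c₀ (EE H z) →
      ∃ i a', a ≤ a' ∧ P183NK.Good M k a' z ∧ Φ i (EE H z) ∧ Gen i G H a' z ∧
        AS H (EE H z) a' := fun a z k hh hg hs hl => by
    rcases hP _ hs hl with h | ⟨i, h⟩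
    · exact absurd (hg.of_le (k' := 0 + cs) (by omega)) (hcs G H a z M 0 hM0 hh hs h)
    · obtain ⟨a', h1, h2, h3, h4⟩ := hW i G H a z M k (hMi i) hh
        (hg.of_le (by have := hci i; omega)) hs h
      exact ⟨i, a', h1, h2, h, h3, h4⟩
  rcases hcase with hsup | ⟨hTH, -⟩
  · have hn := hH'.nomod le_top le_rfl
    have hle : EE H ⊤ ≤ T := EE_le_of le_top (Nm.of_normal _ _) fun c =>
      hn.lt.ne (by rw [← hsup, sup_eq_left.2 c])
    have hE : EE H ⊤ = T := by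
      have hN : ((EE H ⊤).subgroupOf T).Normal := ⟨fun x hx g => nm_EE H ⊤ g trivial x hx⟩
      rcases hN.eq_bot_or_eq_top with e | e
      · refine absurd (le_bot_iff.1 fun x hx => ?_) (EE_ne_bot hn)
        have : (⟨x, hle hx⟩ : T) ∈ (EE H ⊤).subgroupOf T := hx
        rw [e, mem_bot] at this
        exact congrArg Subtype.val this
      · exact le_antisymm hle (subgroupOf_eq_top.1 e)
    obtain ⟨-, x, h1, h2, -, -, h4⟩ :=
      step (F ⊥) ⊤ K hH' (hG'.of_le (by omega)) (hE ▸ hT) (hE ▸ hL)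
    have hreg := keyUp G H _ x ⊤ (hH'.up h1) le_rfl (nm_EE H ⊤) h4
    have hmt := toMT_aux (C := fun _ => False) (j := 0) (c := c') (m := M)
      (P := fun u z => ∃ i, Φ i (EE H z) ∧ Gen i G H u z) (x := x) (b := ⊤)
      (fun a z k ha _ hg => by
        have hz := ha.trans hg.lt.le
        have hs := (hreg.2.2.2 z hz le_top).1
        have hnm := hreg.1.nomod hz le_top
        have hns := ns_of_not_cm hs (EE_not_cm hnm)
        have hl : P183KG.Listed d c₀ (EE H z) := by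
          by_contra hl
          exact hno ⟨EE H z, inferInstance, (hK.sub _).self hns, ⟨inferInstance, hs, hns.nab, hl⟩,
            carries_of (EE_le hnm) (nm_EE H z) (cent_EE_le hnm) (hN' a z k (h1.trans ha) hg)
              (Or.inl (sup_EE hnm))⟩
        obtain ⟨i, a', g1, g2, g3, g4, -⟩ := step a z k (hreg.1.mono ha le_top) hg hs hl
        exact Or.inr ⟨a', g1, g2, i, g3, g4⟩)
      (fun ⟨_, _, _, _, h, _⟩ => h) _ x ⊤ le_rfl le_rfl h2
    obtain ⟨i, hi⟩ := ramsey_aux (Nat.succ_pos _) _ _ j le_rfl x ⊤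
      (hmt.mono_m (Nat.succ_pos _) (Nat.le_succ _))
    exact hF i G H _ x ⊤ hreg (hi.mono_m (hm i) ((Nat.le_add_right _ _).trans (hmi i)))
  · rcases hP _ hT hL with h | ⟨i, h⟩
    · have h1 := hG'.card_le hM0
      have h2 := (card_le_fact T hc).trans (Nat.factorial_le h)
      have h3 : 0 < Nat.card (F ⊥) := Nat.card_pos
      have h4 := Nat.lt_two_pow_self (n := K + c' + (n.factorial + ∑ i, B i) + 1)
      rw [card_top] at h1
      have := Nat.le_mul_of_pos_right (2 ^ (K + c' + (n.factorial + ∑ i, B i) + 1)) h3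
      omega
    · obtain ⟨R, hR, hi, l, hl⟩ := hB i G T hT hc h
      have hn := hH'.nomod le_top le_rfl
      have hRH : R ≤ H := (le_or_EE_le hn le_top (Nm.of_normal _ _)).resolve_right fun c =>
        EE_nle hn fun g hg => hTH (hl ⟨g, c hg⟩
          ((le_derivedSeries (EE_perfect hn) l).resolve_right (not_not.2 c) hg))
      have h1 := hG'.card_le hM0
      have h2 := card_le_of_le (hRH.trans hH'.le)
      have h3 : 0 < Nat.card R := Nat.card_pos
      have h4 := Nat.lt_two_pow_self (n := K + c' + (n.factorial + ∑ i, B i) + 1)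
      have h5 := Finset.single_le_sum (f := B) (fun _ _ => Nat.zero_le _) (Finset.mem_univ i)
      rw [card_top, ← R.index_mul_card] at h1
      have := Nat.le_of_mul_le_mul_right ((Nat.mul_le_mul_left _ h2).trans h1) h3
      omega

theorem forcing : ∃ d : ℕ, ∀ (c : ℕ) (Λ : Type) [Lattice Λ] [Finite Λ] [Nonempty Λ] (k : ℕ),
    ∃ (K : Type) (_ : Lattice K) (_ : BoundedOrder K) (_ : Finite K), NoMod (⊥ : K) ⊤ ∧
      ∀ Ψ : Fam, GIK Ψ K → ∃ (S : Type) (_ : Group S), Ψ S ∧ Tower d c Λ k S := by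
  obtain ⟨d, h⟩ := N183.blocks
  refine ⟨d, fun c Λ _ _ _ k => ?_⟩
  obtain ⟨r, Φ, n, hΦ, hP⟩ := h c
  have := Fintype.ofFinite Λ
  have := Fintype.toBoundedOrder Λ
  induction k with
  | zero =>
    obtain ⟨Λ', _, _, _, h1⟩ := core Φ hΦ n d c hP Λ
    obtain ⟨K, _, _, _, hK, h2⟩ := track Λ'
    refine ⟨K, inferInstance, inferInstance, inferInstance, hK, fun Ψ g => ?_⟩
    obtain ⟨S, _, g1, g2, g3⟩ := h1 Ψ (h2 Ψ g)
    exact ⟨S, inferInstance, g1, .base S g2 g3⟩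
  | succ k ih =>
    obtain ⟨K₀, _, _, _, -, h0⟩ := ih
    have : Finite (K₀ ⊕ₗ Λ) := inferInstanceAs (Finite (K₀ ⊕ Λ))
    obtain ⟨Λ', _, _, _, h1⟩ := core Φ hΦ n d c hP (K₀ ⊕ₗ Λ)
    obtain ⟨K, _, _, _, hK, h2⟩ := track Λ'
    refine ⟨K, inferInstance, inferInstance, inferInstance, hK, fun Ψ g => ?_⟩
    obtain ⟨S, _, g1, g2, g3⟩ := h1 Ψ (h2 Ψ g)
    have := g2.1
    obtain ⟨g4, g5⟩ := split g3
    obtain ⟨S', _, g6, g7⟩ := h0 _ g5
    exact ⟨S, inferInstance, g1, .step k S' S g7 g6 g2 g4⟩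

theorem Carries.rep {S Λ : Type} [Group S] [Finite S] [PartialOrder Λ] (h : Carries S Λ) :
    Representable Λ := by
  obtain ⟨H, G, h1, -, -, ⟨e⟩⟩ := h
  have := finite_aut (T := S)
  exact GI.rep ⟨G, inferInstance, inferInstance, H.subgroupOf G, ⟨((Emb.ofIso e).sub h1).iso⟩⟩

theorem main : ∃ d : ℕ, ∀ c : ℕ,
    ((∀ (S : Type) [Group S] [Finite S], IsSimpleGroup S → (∃ a b : S, a * b ≠ b * a) →
      P183KG.Listed d c S) →
      ∃ (L : Type) (_ : Lattice L) (_ : Finite L) (_ : Nonempty L), ¬ Representable L) ∧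
    ((∀ (L : Type) [Lattice L] [Finite L] [Nonempty L], Representable L) ↔
      ∀ (Λ : Type) [Lattice Λ] [Finite Λ] [Nonempty Λ],
        ∃ (S : Type) (_ : Group S), Exotic d c S ∧ Carries S Λ) ∧
    ∀ (Λ : Type) [Lattice Λ] [Finite Λ] [Nonempty Λ] (k : ℕ),
      ∃ (L : Type) (_ : Lattice L) (_ : Finite L) (_ : Nonempty L),
        (∀ (G : Type) [Group G] [Finite G] (H : Subgroup G),
          Nonempty (L ≃o {K : Subgroup G // H ≤ K}) →
          ∃ (S : Type) (_ : Group S), P183KG.IsSection S G ∧ Tower d c Λ k S) ∧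
        ∀ A : FiniteAlgebra, Nonempty (L ≃o A.Con) →
          ∃ (G S : Type) (_ : Group G) (_ : Group S),
            PolGroup A G ∧ P183KG.IsSection S G ∧ Tower d c Λ k S := by
  obtain ⟨d, h⟩ := forcing
  refine ⟨d, fun c => ?_⟩
  have h3 : ∀ (Λ : Type) [Lattice Λ] [Finite Λ] [Nonempty Λ] (k : ℕ),
      ∃ (L : Type) (_ : Lattice L) (_ : Finite L) (_ : Nonempty L),
        (∀ (G : Type) [Group G] [Finite G] (H : Subgroup G),
          Nonempty (L ≃o {K : Subgroup G // H ≤ K}) →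
          ∃ (S : Type) (_ : Group S), P183KG.IsSection S G ∧ Tower d c Λ k S) ∧
        ∀ A : FiniteAlgebra, Nonempty (L ≃o A.Con) →
          ∃ (G S : Type) (_ : Group G) (_ : Group S),
            PolGroup A G ∧ P183KG.IsSection S G ∧ Tower d c Λ k S := fun Λ _ _ _ k => by
    obtain ⟨K, _, _, _, h1, h2⟩ := h c Λ k
    refine ⟨PP K, inferInstance, inferInstance, ⟨PP.bot⟩, fun G _ _ H e => ?_, fun A ⟨e⟩ => ?_⟩
    · exact h2 (fun S _ => P183KG.IsSection S G)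
        (gik_of_PP ⟨G, inferInstance, inferInstance, H, fun _ _ _ _ g => g, e⟩)
    · obtain ⟨S, _, ⟨G, _, g1, g2⟩, g3⟩ :=
        h2 (fun S _ => ∃ (G : Type) (_ : Group G), PolGroup A G ∧ P183KG.IsSection S G)
          (gik_of_PP (gik_of_con h1 e fun G _ hG S _ _ _ g => ⟨G, inferInstance, hG, g⟩))
      exact ⟨G, S, inferInstance, inferInstance, g1, g2, g3⟩
  have h2 : (∀ (L : Type) [Lattice L] [Finite L] [Nonempty L], Representable L) →
      ∀ (Λ : Type) [Lattice Λ] [Finite Λ] [Nonempty Λ],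
        ∃ (S : Type) (_ : Group S), Exotic d c S ∧ Carries S Λ := fun hr Λ _ _ _ => by
    obtain ⟨L, _, _, _, -, g⟩ := h3 Λ 0
    obtain ⟨A, e⟩ := hr L
    obtain ⟨-, S, -, _, -, -, g⟩ := g A e
    cases g with
    | base _ g1 g2 => exact ⟨S, inferInstance, g1, g2⟩
  refine ⟨fun hc => ?_, ⟨h2, fun hr L _ _ _ => ?_⟩, h3⟩
  · by_contra hn
    obtain ⟨S, _, ⟨_, g1, g2, g3⟩, -⟩ := h2 (fun L _ _ _ => by
      by_contra hL
      exact hn ⟨L, inferInstance, inferInstance, inferInstance, hL⟩) Unit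
    exact g3 (hc S g1 g2)
  · obtain ⟨S, _, g1, g2⟩ := hr L
    have := g1.1
    exact g2.rep

end Vale.Agent.N183X
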